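import Vale.Agent.N144.W.Fin3

namespace Vale.Agent.Results.P144.A0Bdry

open Vale.Agent.P144 Vale.Agent.P144Z Vale.Agent.P144F58 Vale.Agent.N144

theorem result :
    ∀ J > 0,
    ∃ (C : Pts → ℝ) (CD : Set ℂ → Option (ℝ → Config) → Pts → ℝ),
    (∀ E₀, PlaneFam J 0 (fun _ => 0) (Kc / J) E₀ → LocLim Set.univ E₀ C) ∧
    (∀ p, Good Set.univ p → ∀ w t : ℂ, w ≠ 0 → C p = (‖w‖ ^ (1 / 8 : ℝ)) ^ p.n * ‖w‖ ^ p.m *
        C { p with x := fun i => w * p.x i + t, y := fun k => w * p.y k + t }) ∧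
    (∀ D b, P144Y.Nice D b → LocLim D (crit J D b) (CD D b) ∧ ∀ p, Good D p →
      ∀ D' φ, P144Y.Nice D' b → DifferentiableOn ℂ φ D → Set.BijOn φ D D' →
        CD D b p = (∏ i, ‖deriv φ (p.x i)‖ ^ (1 / 8 : ℝ)) * (∏ k, ‖deriv φ (p.y k)‖) *
          CD D' b { p with x := fun i => φ (p.x i), y := fun k => φ (p.y k) }) ∧
    ∀ K < 1, ∀ V, IsPotential V → ∃ lam₀ > 0,
      ∃ β Z : ℝ → ℝ, AnalyticOnNhd ℝ β (Set.Ioo (-lam₀) lam₀) ∧
      AnalyticOnNhd ℝ Z (Set.Ioo (-lam₀) lam₀) ∧ β 0 = Kc / J ∧ Z 0 = 1 ∧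
      ∀ lam : ℝ, |lam| < lam₀ → 0 < β lam ∧ 0 < Z lam ∧
        (∃ μ, IsPlaneState J lam V (β lam) μ ∧ IsTorusState J lam V (β lam) μ ∧
          FieldB Set.univ (famOf μ) (Z lam) C) ∧
        ∀ D b, IsC1 D ∨ IsPC1 D ∨ IsPolygon D ∨
            IsOpen D ∧ Bornology.IsBounded D ∧ Convex ℝ D ∨ IsLip K D → StdBC b →
          ∀ C' : Pts → ℝ, (P144Y.Nice D b ∧ C' = CD D b ∨
              ∀ p, Good D p → p.m = 0 → Lim (crit J D b) p (C' p)) →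
            MomB D (inDom J lam V (β lam) D b) (Z lam) C' ∧
            LawB D (inDom J lam V (β lam) D b) (Z lam) C' ∧
            FieldB D (inDom J lam V (β lam) D b) (Z lam) C' :=
  WL.fin5

end Vale.Agent.Results.P144.A0Bdry
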