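import Vale.Agent.N144K.Fin

namespace Vale.Agent.Results.P144.A0Jordan

open Set Vale.Agent.P144 Vale.Agent.P144Z Vale.Agent.N144K.S

theorem result :
    ∀ J > 0, ∃ CD : Set ℂ → Option (ℝ → Config) → Pts → ℝ,
    (∀ k D, IsJordan k D → IsCara k D) ∧
    (∀ k D b p, IsCara k D → StdBC b → Good D p → p.m = 0 →
      Lim (crit J D b) p (CD D b p) ∧
      ((b = none ∧ Even p.n ∨ b = some fun _ _ => true) → 0 < CD D b p) ∧
      ∀ k' D' φ, IsCara k' D' → DifferentiableOn ℂ φ D → BijOn φ D D' →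
        CD D b p = (∏ i, ‖deriv φ (p.x i)‖ ^ (1 / 8 : ℝ)) * CD D' b (push φ p)) ∧
    ∀ V, IsPotential V → ∃ lam₀ > 0, ∃ β Z : ℝ → ℝ,
      AnalyticOnNhd ℝ β (Ioo (-lam₀) lam₀) ∧ AnalyticOnNhd ℝ Z (Ioo (-lam₀) lam₀) ∧
      β 0 = Kc / J ∧ Z 0 = 1 ∧
      ∀ lam : ℝ, |lam| < lam₀ → 0 < β lam ∧ 0 < Z lam ∧ (Ferro J lam V →
        (∀ k D b p, IsCara k D → StdBC b → Good D p → p.m = 0 →
          Lim (inDom J lam V (β lam) D b) p (Z lam ^ p.n * CD D b p)) ∧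
        ((∀ A, V A ≠ 0 → A.card = 2) →
          ∀ μ ν, IsPlaneState J lam V (β lam) μ → IsPlaneState J lam V (β lam) ν → μ = ν)) :=
  N144K.S.fin

end Vale.Agent.Results.P144.A0Jordan
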